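import Vale.Agent.P346.K.MainK
import Vale.Agent.P346.Main

/-!
# P346: a `2 ^ Ω(√n)` lower bound for homogeneous depth-five circuits over every finite field
-/

namespace Vale.Agent.Results.P346.DepthFiveFiniteFields

open Vale.Agent.P346

/-- For every finite field `K` there are `c₀ > 0` and `n₀` such that the minimum size `s_K(n)` of a
syntactically homogeneous `ΣΠΣΠΣ` circuit over `K` computing `IMM_{n,n}` is at least
`2 ^ (c₀ √n)` for all `n ≥ n₀`. The second clause gives an explicit constant for `K = F_2`, where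
the bound holds for all `ΣΠΣΠΣ` circuits, homogeneous or not. The last clause records that
homogeneous circuits for `IMM_{n,n}` exist, so that the minimum is over a nonempty set. -/
theorem result :
    (∀ (K : Type) [Field K] [Finite K], ∃ c₀ > (0 : ℝ), ∃ n₀ : ℕ, ∀ n ≥ n₀, ∀ hn : 0 < n,
      (2 : ℝ) ^ (c₀ * √(n : ℝ)) ≤ (minSize K n hn : ℝ)) ∧
    (∃ n₀ : ℕ, ∀ n ≥ n₀, ∀ hn : 0 < n, ∀ C : Circuit (ZMod 2) (IVar n n),
      C.out = IMM (ZMod 2) n n hn → (2 : ℝ) ^ (√(n : ℝ) / 1000) ≤ (C.size : ℝ)) ∧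
    (∀ (K : Type) [Field K] (n : ℕ) (hn : 0 < n), ∃ C : Circuit K (IVar n n),
      C.Homogeneous ∧ C.out = IMM K n n hn) :=
  ⟨fun K _ _ => FK.mainK K, main_all, fun K _ n hn => exists_circuit K n hn⟩

end Vale.Agent.Results.P346.DepthFiveFiniteFields
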