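import Vale.Agent.P346.Main

/-!
# P346: a `2 ^ Ω(√n)` lower bound for depth-five circuits over `F_2`
-/

namespace Vale.Agent.Results.P346.DepthFiveOverFTwo

open Vale.Agent.P346

/-- For all large `n`: the minimum size `s_{F_2}(n)` of a syntactically homogeneous `ΣΠΣΠΣ` circuit
over `F_2` computing `IMM_{n,n}` is at least `2 ^ (√n / 1000)`, and so is the size of every `ΣΠΣΠΣ`
circuit over `F_2` computing `IMM_{n,n}`, homogeneous or not. The last clause records that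
homogeneous circuits for `IMM_{n,n}` exist, so that the minimum is over a nonempty set. -/
theorem result :
    (∃ n₀ : ℕ, ∀ n ≥ n₀, ∀ hn : 0 < n,
      (2 : ℝ) ^ (√(n : ℝ) / 1000) ≤ (minSize (ZMod 2) n hn : ℝ)) ∧
    (∃ n₀ : ℕ, ∀ n ≥ n₀, ∀ hn : 0 < n, ∀ C : Circuit (ZMod 2) (IVar n n),
      C.out = IMM (ZMod 2) n n hn → (2 : ℝ) ^ (√(n : ℝ) / 1000) ≤ (C.size : ℝ)) ∧
    (∀ (n : ℕ) (hn : 0 < n), ∃ C : Circuit (ZMod 2) (IVar n n),
      C.Homogeneous ∧ C.out = IMM (ZMod 2) n n hn) :=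
  ⟨main, main_all, fun n hn => exists_circuit (ZMod 2) n hn⟩

end Vale.Agent.Results.P346.DepthFiveOverFTwo
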